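import Mathlib

namespace Vale.Agent.P330

/-- The gate (if any) whose output is a given node: its kind, its rational parameter and its
input nodes.  The output node is the node the gate is attached to. -/
inductive Gate (V : Type) : Type
  | const (α : ℚ)
  | scale (α : ℚ) (a : V)
  | copy (a : V)
  | add (a b : V)
  | sub (a b : V)
  | less (a b : V)
  | neg (a : V)
  | or (a b : V)
  | and (a b : V)

/-- The parameter of a gate lies in `[0,1]`. -/
def Gate.ParamOK {V : Type} : Gate V → Prop
  | .const α => 0 ≤ α ∧ α ≤ 1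
  | .scale α _ => 0 ≤ α ∧ α ≤ 1
  | _ => True

/-- `g.Sat ε x z`: the gate `g` with output node `z` is `ε`-satisfied by the assignment `x`. -/
def Gate.Sat {V : Type} (ε : ℚ) (x : V → ℚ) (z : V) : Gate V → Prop
  | .const α => |x z - α| ≤ ε
  | .scale α a => |x z - α * x a| ≤ ε
  | .copy a => |x z - x a| ≤ ε
  | .add a b => |x z - min (x a + x b) 1| ≤ ε
  | .sub a b => |x z - max (x a - x b) 0| ≤ ε
  | .less a b => (x a < x b - ε → 1 - ε ≤ x z) ∧ (x b + ε < x a → x z ≤ ε)
  | .neg a => (x a ≤ ε → 1 - ε ≤ x z) ∧ (1 - ε ≤ x a → x z ≤ ε)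
  | .or a b => ((1 - ε ≤ x a ∨ 1 - ε ≤ x b) → 1 - ε ≤ x z) ∧ ((x a ≤ ε ∧ x b ≤ ε) → x z ≤ ε)
  | .and a b => ((1 - ε ≤ x a ∧ 1 - ε ≤ x b) → 1 - ε ≤ x z) ∧ ((x a ≤ ε ∨ x b ≤ ε) → x z ≤ ε)

/-- A generalized circuit on the finite node set `V`: every node is the output of at most one
gate (`gate z = none` if of none), cycles are allowed, parameters lie in `[0,1]`, and there is
at least one gate. -/
structure GCircuit (V : Type) where
  gate : V → Option (Gate V)
  param_ok : ∀ z g, gate z = some g → g.ParamOK
  nonempty : ∃ z, gate z ≠ none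

variable {V : Type}

/-- The node `z` carries a gate and that gate is `ε`-satisfied by `x`. -/
def GCircuit.SatAt (G : GCircuit V) (ε : ℚ) (x : V → ℚ) (z : V) : Prop :=
  ∃ g, G.gate z = some g ∧ g.Sat ε x z

open Classical in
/-- The number `|T|` of gates. -/
noncomputable def GCircuit.numGates [Fintype V] (G : GCircuit V) : ℕ :=
  (Finset.univ.filter fun z => G.gate z ≠ none).card

open Classical in
/-- The number of gates that `x` `ε`-satisfies. -/
noncomputable def GCircuit.numSat [Fintype V] (G : GCircuit V) (ε : ℚ) (x : V → ℚ) : ℕ :=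
  (Finset.univ.filter fun z => G.SatAt ε x z).card

/-- One synchronous round of a local update rule: the new value of a node depends only on its
gate and on the current values of the inputs of that gate. -/
def quarterStep (G : GCircuit V) (ε : ℚ) (x : V → ℚ) (z : V) : ℚ :=
  match G.gate z with
  | none => 1/2
  | some (.const α) => max ε (min α (1 - ε))
  | some (.scale α _) => max (α / 2) ε
  | some (.copy _) => 1/2
  | some (.add _ _) => 1 - ε
  | some (.sub _ _) => ε
  | some (.less a b) => if x a < x b - ε then 1 - ε else if x b + ε < x a then ε else 1/2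
  | some (.neg a) => if x a ≤ ε then 1 - ε else if 1 - ε ≤ x a then ε else 1/2
  | some (.or a b) =>
      if 1 - ε ≤ x a ∨ 1 - ε ≤ x b then 1 - ε else if x a ≤ ε ∧ x b ≤ ε then ε else 1/2
  | some (.and a b) =>
      if 1 - ε ≤ x a ∧ 1 - ε ≤ x b then 1 - ε else if x a ≤ ε ∨ x b ≤ ε then ε else 1/2

/-- One synchronous round of a local update rule that evaluates Constant, Copy, Not, Or and And
gates (with `1/2` standing for undetermined) and puts `1/2` on every other node. -/
def logicStep (G : GCircuit V) (ε : ℚ) (x : V → ℚ) (z : V) : ℚ :=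
  match G.gate z with
  | some (.const α) => α
  | some (.copy a) => x a
  | some (.neg a) => if x a ≤ ε then 1 else if 1 - ε ≤ x a then 0 else 1/2
  | some (.or a b) =>
      if 1 - ε ≤ x a ∨ 1 - ε ≤ x b then 1 else if x a ≤ ε ∧ x b ≤ ε then 0 else 1/2
  | some (.and a b) =>
      if 1 - ε ≤ x a ∧ 1 - ε ≤ x b then 1 else if x a ≤ ε ∨ x b ≤ ε then 0 else 1/2
  | _ => 1/2

end Vale.Agent.P330
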