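import Vale.Agent.P330.Kleene

namespace Vale.Agent.P330

variable {V : Type}

/-- Gates of kind Constant or Not. -/
def Gate.IsConstOrNot {V : Type} : Gate V → Prop
  | .const _ => True
  | .neg _ => True
  | _ => False

theorem logicStep_range (G : GCircuit V) (ε : ℚ) (x : V → ℚ) (hx : ∀ v, 0 ≤ x v ∧ x v ≤ 1)
    (z : V) : 0 ≤ logicStep G ε x z ∧ logicStep G ε x z ≤ 1 := by
  unfold logicStep
  rcases hg : G.gate z with _ | g
  · simp only; constructor <;> norm_num
  · have hp := G.param_ok z g hg
    cases g with
    | const α => exact hp
    | scale α a => simp only; constructor <;> norm_num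
    | copy a => exact hx a
    | add a b => simp only; constructor <;> norm_num
    | sub a b => simp only; constructor <;> norm_num
    | less a b => simp only; constructor <;> norm_num
    | neg a => simp only; split_ifs <;> constructor <;> norm_num
    | or a b => simp only; split_ifs <;> constructor <;> norm_num
    | and a b => simp only; split_ifs <;> constructor <;> norm_num

theorem logicStep_mono (G : GCircuit V) (ε : ℚ) (h2 : ε < 1/2) (x y : V → ℚ)
    (hxy : InfoLe x y) : InfoLe (logicStep G ε x) (logicStep G ε y) := by
  intro z
  unfold logicStep
  rcases hg : G.gate z with _ | g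
  · right; rfl
  · cases g with
    | const α => right; rfl
    | scale α a => right; rfl
    | copy a => exact hxy a
    | add a b => right; rfl
    | sub a b => right; rfl
    | less a b => right; rfl
    | neg a =>
      simp only
      rcases hxy a with ha | ha
      · left
        rw [ha]
        rw [if_neg (by linarith), if_neg (by linarith)]
      · right; rw [ha]
    | or a b =>
      simp only
      rcases hxy a with ha | ha <;> rcases hxy b with hb | hb
      · left
        rw [ha, hb]
        rw [if_neg (by rintro (h | h) <;> linarith), if_neg (by rintro ⟨h, _⟩; linarith)]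
      · rw [ha, ← hb]
        by_cases hb1 : 1 - ε ≤ x b
        · right
          rw [if_pos (Or.inr hb1), if_pos (Or.inr hb1)]
        · left
          rw [if_neg (by rintro (h | h); linarith; exact hb1 h), if_neg (by rintro ⟨h, _⟩; linarith)]
      · rw [hb, ← ha]
        by_cases ha1 : 1 - ε ≤ x a
        · right
          rw [if_pos (Or.inl ha1), if_pos (Or.inl ha1)]
        · left
          rw [if_neg (by rintro (h | h); exact ha1 h; linarith), if_neg (by rintro ⟨_, h⟩; linarith)]
      · right; rw [ha, hb]
    | and a b =>
      simp only
      rcases hxy a with ha | ha <;> rcases hxy b with hb | hb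
      · left
        rw [ha, hb]
        rw [if_neg (by rintro ⟨h, _⟩; linarith), if_neg (by rintro (h | h) <;> linarith)]
      · rw [ha, ← hb]
        by_cases hb1 : x b ≤ ε
        · right
          have hnb : ¬ (1 - ε ≤ x b) := by intro h; linarith
          rw [if_neg (by rintro ⟨_, h⟩; exact hnb h), if_pos (Or.inr hb1),
            if_neg (by rintro ⟨_, h⟩; exact hnb h), if_pos (Or.inr hb1)]
        · left
          rw [if_neg (by rintro ⟨h, _⟩; linarith), if_neg (by rintro (h | h); linarith; exact hb1 h)]
      · rw [hb, ← ha]
        by_cases ha1 : x a ≤ ε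
        · right
          have hna : ¬ (1 - ε ≤ x a) := by intro h; linarith
          rw [if_neg (by rintro ⟨h, _⟩; exact hna h), if_pos (Or.inl ha1),
            if_neg (by rintro ⟨h, _⟩; exact hna h), if_pos (Or.inl ha1)]
        · left
          rw [if_neg (by rintro ⟨_, h⟩; linarith), if_neg (by rintro (h | h); exact ha1 h; linarith)]
      · right; rw [ha, hb]

theorem logicStep_fixed_sat (G : GCircuit V) (ε : ℚ) (h1 : 0 < ε) (h2 : ε < 1/2) (x : V → ℚ)
    (hfix : logicStep G ε x = x) (z : V) (g : Gate V)
    (hg : G.gate z = some g) (hk : g.IsConstOrNot) : g.Sat ε x z := by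
  have hz : x z = logicStep G ε x z := by rw [hfix]
  unfold logicStep at hz
  rw [hg] at hz
  cases g with
  | const α =>
    simp only at hz
    simp only [Gate.Sat]
    rw [hz]; simp; exact h1.le
  | neg a =>
    simp only at hz
    simp only [Gate.Sat]
    constructor
    · intro h
      rw [if_pos h] at hz
      linarith
    · intro h
      rw [if_neg (by linarith), if_pos h] at hz
      linarith
  | scale α a => exact absurd hk (by simp [Gate.IsConstOrNot])
  | copy a => exact absurd hk (by simp [Gate.IsConstOrNot])
  | add a b => exact absurd hk (by simp [Gate.IsConstOrNot])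
  | sub a b => exact absurd hk (by simp [Gate.IsConstOrNot])
  | less a b => exact absurd hk (by simp [Gate.IsConstOrNot])
  | or a b => exact absurd hk (by simp [Gate.IsConstOrNot])
  | and a b => exact absurd hk (by simp [Gate.IsConstOrNot])

theorem zero_sat (ε : ℚ) (h1 : 0 < ε) (z : V) (g : Gate V)
    (hk : ¬ g.IsConstOrNot) : g.Sat ε (fun _ => 0) z := by
  cases g with
  | const α => exact absurd trivial hk
  | neg a => exact absurd trivial hk
  | scale α a => simp [Gate.Sat, h1.le]
  | copy a => simp [Gate.Sat, h1.le]
  | add a b => simp [Gate.Sat, h1.le]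
  | sub a b => simp [Gate.Sat, h1.le]
  | less a b =>
    simp only [Gate.Sat]
    constructor
    · intro h; linarith
    · intro _; exact h1.le
  | or a b =>
    simp only [Gate.Sat]
    constructor
    · rintro (h | h) <;> exact h
    · intro _; exact h1.le
  | and a b =>
    simp only [Gate.Sat]
    constructor
    · rintro ⟨h, _⟩; exact h
    · intro _; exact h1.le

end Vale.Agent.P330
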