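import Vale.Agent.P330.Defs

namespace Vale.Agent.P330

variable {V : Type}

/-- information order: the value `1/2` may be refined to anything. -/
def InfoLe (x y : V → ℚ) : Prop := ∀ v, x v = 1/2 ∨ x v = y v

theorem iterate_fixed [Fintype V] (Φ : (V → ℚ) → (V → ℚ)) (D : (V → ℚ) → Prop)
    (hD0 : D (fun _ => 1/2)) (hD : ∀ x, D x → D (Φ x))
    (hmono : ∀ x y, D x → D y → InfoLe x y → InfoLe (Φ x) (Φ y)) :
    Φ (Φ^[Fintype.card V] (fun _ => 1/2)) = Φ^[Fintype.card V] (fun _ => 1/2) := by
  classical
  set x : ℕ → (V → ℚ) := fun k => Φ^[k] (fun _ => 1/2) with hx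
  have hxs : ∀ k, x (k+1) = Φ (x k) := by
    intro k
    simp only [hx, Function.iterate_succ_apply']
  have hDx : ∀ k, D (x k) := by
    intro k
    induction k with
    | zero => simpa [hx] using hD0
    | succ k ih => rw [hxs]; exact hD _ ih
  have hle : ∀ k, InfoLe (x k) (x (k+1)) := by
    intro k
    induction k with
    | zero => intro v; left; simp [hx]
    | succ k ih =>
      rw [hxs k, hxs (k+1), hxs k]
      have := hmono _ _ (hDx k) (hDx (k+1)) ih
      rw [hxs k] at this
      exact this
  set S : ℕ → Finset V := fun k => Finset.univ.filter fun v => x k v ≠ 1/2 with hS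
  have hstep : ∀ k, x k ≠ x (k+1) → (S k).card + 1 ≤ (S (k+1)).card := by
    intro k hne
    have hsub : S k ⊂ S (k+1) := by
      rw [Finset.ssubset_iff_of_subset]
      · obtain ⟨v, hv⟩ := Function.ne_iff.mp hne
        refine ⟨v, ?_, ?_⟩
        · rcases hle k v with h | h
          · simp only [hS, Finset.mem_filter, Finset.mem_univ, true_and]
            intro h2
            exact hv (h.trans h2.symm)
          · exact absurd h hv
        · rcases hle k v with h | h
          · simp [hS, h]
          · exact absurd h hv
      · intro v hv
        simp only [hS, Finset.mem_filter, Finset.mem_univ, true_and] at hv ⊢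
        rcases hle k v with h | h
        · exact absurd h hv
        · rw [← h]; exact hv
    exact Finset.card_lt_card hsub
  have hconst : ∀ j, x j = x (j+1) → ∀ k, j ≤ k → x k = x (k+1) := by
    intro j hj k hjk
    induction k, hjk using Nat.le_induction with
    | base => exact hj
    | succ k _ ih => rw [hxs (k+1), ← ih, ← hxs k]; exact ih
  have key : x (Fintype.card V) = x (Fintype.card V + 1) := by
    by_contra hcon
    have hall : ∀ j, j ≤ Fintype.card V → x j ≠ x (j+1) := by
      intro j hj h
      exact hcon (hconst j h _ hj)
    have hcard : ∀ j, j ≤ Fintype.card V + 1 → j ≤ (S j).card := by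
      intro j
      induction j with
      | zero => intro _; exact Nat.zero_le _
      | succ j ih =>
        intro hj
        have h1 := ih (by omega)
        have h2 := hstep j (hall j (by omega))
        omega
    have h3 := hcard (Fintype.card V + 1) le_rfl
    have h4 : (S (Fintype.card V + 1)).card ≤ Fintype.card V := Finset.card_le_univ _
    omega
  rw [hxs] at key
  exact key.symm

end Vale.Agent.P330
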