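import Vale.Agent.P330.Quarter
import Vale.Agent.P330.Half

namespace Vale.Agent.P330

theorem quarter_part (V : Type) [Fintype V] (G : GCircuit V) (ε : ℚ) (h1 : 1/4 ≤ ε)
    (h2 : ε < 1/2) :
    (∀ v, 0 ≤ ((quarterStep G ε)^[Fintype.card V] fun _ => 1/2) v ∧
        ((quarterStep G ε)^[Fintype.card V] fun _ => 1/2) v ≤ 1) ∧
      ∀ z g, G.gate z = some g →
        g.Sat ε ((quarterStep G ε)^[Fintype.card V] fun _ => 1/2) z := by
  have hfix := iterate_fixed (quarterStep G ε) (fun x => ∀ v, ε ≤ x v ∧ x v ≤ 1 - ε)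
    (by intro v; constructor <;> linarith)
    (fun x _ v => quarterStep_range G ε h1 h2 x v)
    (fun x y hx hy hxy => quarterStep_mono G ε h1 h2 x y hx hy hxy)
  have hr : ∀ v, ε ≤ ((quarterStep G ε)^[Fintype.card V] fun _ => 1/2) v ∧
      ((quarterStep G ε)^[Fintype.card V] fun _ => 1/2) v ≤ 1 - ε := by
    intro v
    rw [← hfix]
    exact quarterStep_range G ε h1 h2 _ v
  refine ⟨fun v => ⟨by linarith [(hr v).1], by linarith [(hr v).2]⟩, ?_⟩
  intro z g hg
  exact quarterStep_fixed_sat G ε h1 h2 _ hr hfix z g hg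

theorem half_part (V : Type) [Fintype V] (G : GCircuit V) (ε : ℚ) (h1 : 0 < ε)
    (h2 : ε < 1/2) :
    (∀ v, 0 ≤ ((logicStep G ε)^[Fintype.card V] fun _ => 1/2) v ∧
        ((logicStep G ε)^[Fintype.card V] fun _ => 1/2) v ≤ 1) ∧
      G.numGates ≤ G.numSat ε (fun _ => 0) +
        G.numSat ε ((logicStep G ε)^[Fintype.card V] fun _ => 1/2) := by
  classical
  have hfix := iterate_fixed (logicStep G ε) (fun _ => True) trivial (fun _ _ => trivial)
    (fun x y _ _ hxy => logicStep_mono G ε h2 x y hxy)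
  have hr : ∀ k : ℕ, ∀ v, 0 ≤ ((logicStep G ε)^[k] fun _ => 1/2) v ∧
      ((logicStep G ε)^[k] fun _ => 1/2) v ≤ 1 := by
    intro k
    induction k with
    | zero => intro v; simp only [Function.iterate_zero, id]; constructor <;> norm_num
    | succ k ih =>
      intro v
      rw [Function.iterate_succ_apply']
      exact logicStep_range G ε _ ih v
  refine ⟨hr _, ?_⟩
  set x1 := (logicStep G ε)^[Fintype.card V] fun _ => 1/2 with hx1
  unfold GCircuit.numGates GCircuit.numSat
  have hsub : (Finset.univ.filter fun z => G.gate z ≠ none) ⊆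
      (Finset.univ.filter fun z => G.SatAt ε (fun _ => 0) z) ∪
        (Finset.univ.filter fun z => G.SatAt ε x1 z) := by
    intro z hz
    simp only [Finset.mem_filter, Finset.mem_univ, true_and, Finset.mem_union] at hz ⊢
    obtain ⟨g, hg⟩ := Option.ne_none_iff_exists'.mp hz
    by_cases hk : g.IsConstOrNot
    · right
      exact ⟨g, hg, logicStep_fixed_sat G ε h1 h2 x1 hfix z g hg hk⟩
    · left
      exact ⟨g, hg, zero_sat ε h1 z g hk⟩
  calc _ ≤ _ := Finset.card_le_card hsub
    _ ≤ _ := Finset.card_union_le _ _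

end Vale.Agent.P330
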