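import Vale.Agent.P330.Defs

namespace Vale.Agent.P330

/-- A Pure-Circuit instance (Deligkas-Fearnley-Hollender-Melissourgos) with gates indexed by `Γ`.
A node is a pair (gate, output port), so every node is the output of exactly one gate: a NOR gate
`g` has inputs `in1 g`, `in2 g` and output `(g, false)`; a PURIFY gate `g` has input `in1 g` and
outputs `(g, false)`, `(g, true)`. -/
structure PureCircuit (Γ : Type) where
  isPurify : Γ → Bool
  in1 : Γ → Γ × Bool
  in2 : Γ → Γ × Bool

variable {Γ : Type}

/-- The gate `g` is satisfied by the assignment `y` with values `0`, `1` (`some false`,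
`some true`) or `⊥` (`none`). -/
def PureCircuit.SatAt (C : PureCircuit Γ) (y : Γ × Bool → Option Bool) (g : Γ) : Prop :=
  if C.isPurify g = true then
    (y (g, false) ≠ none ∨ y (g, true) ≠ none) ∧
      (y (C.in1 g) ≠ none → y (g, false) = y (C.in1 g) ∧ y (g, true) = y (C.in1 g))
  else
    ((y (C.in1 g) = some false ∧ y (C.in2 g) = some false) → y (g, false) = some true) ∧
      ((y (C.in1 g) = some true ∨ y (C.in2 g) = some true) → y (g, false) = some false)

open Classical in
/-- Number of gates of `C` satisfied by `y`. -/
noncomputable def PureCircuit.numSat [Fintype Γ] (C : PureCircuit Γ)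
    (y : Γ × Bool → Option Bool) : ℕ :=
  (Finset.univ.filter fun g => C.SatAt y g).card

/-- The eight local nodes of the gadget of a gate: positive and negative rails of the two output
ports, two difference nodes and two constant nodes. -/
inductive Loc : Type
  | p0 | n0 | p1 | n1 | sp | sm | k1 | k2
  deriving DecidableEq

instance : Fintype Loc where
  elems := {Loc.p0, Loc.n0, Loc.p1, Loc.n1, Loc.sp, Loc.sm, Loc.k1, Loc.k2}
  complete := by intro x; cases x <;> simp

/-- Positive rail of a Pure-Circuit node. -/
def railP (u : Γ × Bool) : Γ × Loc := (u.1, if u.2 = true then Loc.p1 else Loc.p0)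

/-- Negative rail of a Pure-Circuit node. -/
def railN (u : Γ × Bool) : Γ × Loc := (u.1, if u.2 = true then Loc.n1 else Loc.n0)

/-- The gate attached to the local node `l` of the gadget of `g`. -/
def gadgetGate (C : PureCircuit Γ) (g : Γ) (l : Loc) : Option (Gate (Γ × Loc)) :=
  if C.isPurify g = true then
    match l with
    | .sp => some (.sub (railP (C.in1 g)) (railN (C.in1 g)))
    | .sm => some (.sub (railN (C.in1 g)) (railP (C.in1 g)))
    | .k1 => some (.const (3/8))
    | .k2 => some (.const (3/8))
    | .p0 => some (.less (g, Loc.k1) (g, Loc.sp))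
    | .n0 => some (.neg (g, Loc.p0))
    | .p1 => some (.less (g, Loc.sm) (g, Loc.k2))
    | .n1 => some (.neg (g, Loc.p1))
  else
    match l with
    | .p0 => some (.and (railN (C.in1 g)) (railN (C.in2 g)))
    | .n0 => some (.or (railP (C.in1 g)) (railP (C.in2 g)))
    | _ => none

/-- The generalized circuit on the node set `Γ × Loc` obtained by replacing every gate of `C`
by its gadget (2 gates for NOR, 8 gates for PURIFY). -/
def PureCircuit.toGCircuit [Nonempty Γ] (C : PureCircuit Γ) : GCircuit (Γ × Loc) where
  gate := fun z => gadgetGate C z.1 z.2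
  param_ok := by
    intro z g hg
    obtain ⟨γ, l⟩ := z
    simp only [gadgetGate] at hg
    split_ifs at hg <;> cases l <;> simp at hg <;> subst hg <;> simp [Gate.ParamOK] <;> norm_num
  nonempty := by
    obtain ⟨γ⟩ := ‹Nonempty Γ›
    refine ⟨(γ, Loc.p0), ?_⟩
    simp only [gadgetGate]
    split_ifs <;> simp

/-- Reading a Pure-Circuit assignment off an assignment of the generalized circuit: a node is `1`
if its positive rail is at least `1 - ε` and its negative rail at most `ε`, `0` in the mirrored
case, and `⊥` otherwise. -/
def decode (ε : ℚ) (x : Γ × Loc → ℚ) (u : Γ × Bool) : Option Bool :=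
  if 1 - ε ≤ x (railP u) ∧ x (railN u) ≤ ε then some true
  else if x (railP u) ≤ ε ∧ 1 - ε ≤ x (railN u) then some false
  else none

end Vale.Agent.P330
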