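import Vale.Agent.P330.Kleene

namespace Vale.Agent.P330

variable {V : Type}

theorem quarterStep_range (G : GCircuit V) (ε : ℚ) (_h1 : 1/4 ≤ ε) (h2 : ε < 1/2) (x : V → ℚ)
    (z : V) : ε ≤ quarterStep G ε x z ∧ quarterStep G ε x z ≤ 1 - ε := by
  unfold quarterStep
  rcases hg : G.gate z with _ | g
  · simp only; constructor <;> linarith
  · have hp := G.param_ok z g hg
    cases g with
    | const α =>
      simp only
      refine ⟨le_max_left _ _, max_le (by linarith) (min_le_right _ _)⟩
    | scale α a =>
      simp only
      have : α ≤ 1 := hp.2
      refine ⟨le_max_right _ _, max_le (by linarith) (by linarith)⟩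
    | copy a => simp only; constructor <;> linarith
    | add a b => simp only; constructor <;> linarith
    | sub a b => simp only; constructor <;> linarith
    | less a b => simp only; split_ifs <;> constructor <;> linarith
    | neg a => simp only; split_ifs <;> constructor <;> linarith
    | or a b => simp only; split_ifs <;> constructor <;> linarith
    | and a b => simp only; split_ifs <;> constructor <;> linarith

theorem quarterStep_mono (G : GCircuit V) (ε : ℚ) (h1 : 1/4 ≤ ε) (h2 : ε < 1/2) (x y : V → ℚ)
    (hx : ∀ v, ε ≤ x v ∧ x v ≤ 1 - ε) (_hy : ∀ v, ε ≤ y v ∧ y v ≤ 1 - ε) (hxy : InfoLe x y) :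
    InfoLe (quarterStep G ε x) (quarterStep G ε y) := by
  intro z
  unfold quarterStep
  rcases hg : G.gate z with _ | g
  · right; rfl
  · cases g with
    | const α => right; rfl
    | scale α a => right; rfl
    | copy a => right; rfl
    | add a b => right; rfl
    | sub a b => right; rfl
    | less a b =>
      simp only
      have hxa := hx a; have hxb := hx b
      rcases hxy a with ha | ha
      · left
        rw [ha] at *
        rw [if_neg (by linarith), if_neg (by linarith)]
      · rcases hxy b with hb | hb
        · left
          rw [hb] at *
          rw [if_neg (by linarith), if_neg (by linarith)]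
        · right; rw [ha, hb]
    | neg a =>
      simp only
      rcases hxy a with ha | ha
      · left
        rw [ha]
        rw [if_neg (by linarith), if_neg (by linarith)]
      · right; rw [ha]
    | or a b =>
      simp only
      rcases hxy a with ha | ha <;> rcases hxy b with hb | hb
      · left
        rw [ha, hb]
        rw [if_neg (by rintro (h | h) <;> linarith), if_neg (by rintro ⟨h, _⟩; linarith)]
      · rw [ha, ← hb]
        by_cases hb1 : 1 - ε ≤ x b
        · right
          rw [if_pos (Or.inr hb1), if_pos (Or.inr hb1)]
        · left
          rw [if_neg (by rintro (h | h); linarith; exact hb1 h), if_neg (by rintro ⟨h, _⟩; linarith)]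
      · rw [hb, ← ha]
        by_cases ha1 : 1 - ε ≤ x a
        · right
          rw [if_pos (Or.inl ha1), if_pos (Or.inl ha1)]
        · left
          rw [if_neg (by rintro (h | h); exact ha1 h; linarith), if_neg (by rintro ⟨_, h⟩; linarith)]
      · right; rw [ha, hb]
    | and a b =>
      simp only
      rcases hxy a with ha | ha <;> rcases hxy b with hb | hb
      · left
        rw [ha, hb]
        rw [if_neg (by rintro ⟨h, _⟩; linarith), if_neg (by rintro (h | h) <;> linarith)]
      · rw [ha, ← hb]
        by_cases hb1 : x b ≤ ε
        · right
          have hnb : ¬ (1 - ε ≤ x b) := by intro h; linarith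
          rw [if_neg (by rintro ⟨_, h⟩; exact hnb h), if_pos (Or.inr hb1),
            if_neg (by rintro ⟨_, h⟩; exact hnb h), if_pos (Or.inr hb1)]
        · left
          rw [if_neg (by rintro ⟨h, _⟩; linarith), if_neg (by rintro (h | h); linarith; exact hb1 h)]
      · rw [hb, ← ha]
        by_cases ha1 : x a ≤ ε
        · right
          have hna : ¬ (1 - ε ≤ x a) := by intro h; linarith
          rw [if_neg (by rintro ⟨h, _⟩; exact hna h), if_pos (Or.inl ha1),
            if_neg (by rintro ⟨h, _⟩; exact hna h), if_pos (Or.inl ha1)]
        · left
          rw [if_neg (by rintro ⟨_, h⟩; linarith), if_neg (by rintro (h | h); exact ha1 h; linarith)]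
      · right; rw [ha, hb]

theorem quarterStep_fixed_sat (G : GCircuit V) (ε : ℚ) (h1 : 1/4 ≤ ε) (h2 : ε < 1/2) (x : V → ℚ)
    (hx : ∀ v, ε ≤ x v ∧ x v ≤ 1 - ε) (hfix : quarterStep G ε x = x) (z : V) (g : Gate V)
    (hg : G.gate z = some g) : g.Sat ε x z := by
  have hz : x z = quarterStep G ε x z := by rw [hfix]
  have hp := G.param_ok z g hg
  unfold quarterStep at hz
  rw [hg] at hz
  cases g with
  | const α =>
    simp only at hz
    obtain ⟨hp0, hp1⟩ := hp
    simp only [Gate.Sat]
    rw [hz, abs_le]
    constructor
    · have : ε ≤ max ε (min α (1 - ε)) := le_max_left _ _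
      rcases le_total α (1 - ε) with h | h
      · rw [min_eq_left h]
        have := le_max_right ε α
        linarith
      · rw [min_eq_right h]
        have := le_max_right ε (1 - ε)
        linarith
    · have : max ε (min α (1 - ε)) ≤ α + ε := by
        apply max_le (by linarith)
        have := min_le_left α (1 - ε)
        linarith
      linarith
  | scale α a =>
    simp only at hz
    obtain ⟨hp0, hp1⟩ := hp
    have hxa := hx a
    simp only [Gate.Sat]
    rw [hz, abs_le]
    have e1 : α * x a ≤ α * (1 - ε) := mul_le_mul_of_nonneg_left hxa.2 hp0
    have e2 : α * ε ≤ α * x a := mul_le_mul_of_nonneg_left hxa.1 hp0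
    have e3 : α * ε ≤ 1 * ε := mul_le_mul_of_nonneg_right hp1 (by linarith)
    have e4 : 0 ≤ α * ε := mul_nonneg hp0 (by linarith)
    have e5 : α * (1/4) ≤ α * ε := mul_le_mul_of_nonneg_left h1 hp0
    constructor
    · have := le_max_left (α / 2) ε
      nlinarith
    · apply sub_le_iff_le_add.mpr
      apply max_le
      · nlinarith
      · nlinarith
  | copy a =>
    simp only at hz
    have hxa := hx a
    simp only [Gate.Sat]
    rw [hz, abs_le]
    constructor <;> linarith
  | add a b =>
    simp only at hz
    have hxa := hx a; have hxb := hx b
    simp only [Gate.Sat]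
    rw [hz, abs_le]
    constructor
    · have := min_le_right (x a + x b) 1
      linarith
    · have : 2 * ε ≤ min (x a + x b) 1 := le_min (by linarith) (by linarith)
      linarith
  | sub a b =>
    simp only at hz
    have hxa := hx a; have hxb := hx b
    simp only [Gate.Sat]
    rw [hz, abs_le]
    constructor
    · have : max (x a - x b) 0 ≤ 1 - 2 * ε := max_le (by linarith) (by linarith)
      linarith
    · have := le_max_right (x a - x b) 0
      linarith
  | less a b =>
    simp only at hz
    simp only [Gate.Sat]
    constructor
    · intro h
      rw [if_pos h] at hz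
      linarith
    · intro h
      rw [if_neg (by linarith), if_pos h] at hz
      linarith
  | neg a =>
    simp only at hz
    simp only [Gate.Sat]
    constructor
    · intro h
      rw [if_pos h] at hz
      linarith
    · intro h
      rw [if_neg (by linarith), if_pos h] at hz
      linarith
  | or a b =>
    simp only at hz
    simp only [Gate.Sat]
    constructor
    · intro h
      rw [if_pos h] at hz
      linarith
    · intro h
      rw [if_neg (by rintro (h' | h') <;> linarith [h.1, h.2]), if_pos h] at hz
      linarith
  | and a b =>
    simp only at hz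
    simp only [Gate.Sat]
    constructor
    · intro h
      rw [if_pos h] at hz
      linarith
    · intro h
      rw [if_neg (by rintro ⟨h', h''⟩; rcases h with h | h <;> linarith), if_pos h] at hz
      linarith

theorem half_sat (G : GCircuit V) (ε : ℚ) (h : 1/2 ≤ ε) (z : V) (g : Gate V)
    (hg : G.gate z = some g) : g.Sat ε (fun _ => 1/2) z := by
  have hp := G.param_ok z g hg
  cases g with
  | const α =>
    obtain ⟨hp0, hp1⟩ := hp
    simp only [Gate.Sat]; rw [abs_le]; constructor <;> linarith
  | scale α a =>
    obtain ⟨hp0, hp1⟩ := hp
    simp only [Gate.Sat]; rw [abs_le]; constructor <;> linarith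
  | copy a => simp only [Gate.Sat]; rw [abs_le]; constructor <;> linarith
  | add a b =>
    simp only [Gate.Sat]; norm_num; exact h
  | sub a b =>
    simp only [Gate.Sat]; norm_num; exact h
  | less a b => simp only [Gate.Sat]; constructor <;> intro _ <;> linarith
  | neg a => simp only [Gate.Sat]; constructor <;> intro _ <;> linarith
  | or a b => simp only [Gate.Sat]; constructor <;> intro _ <;> linarith
  | and a b => simp only [Gate.Sat]; constructor <;> intro _ <;> linarith

end Vale.Agent.P330
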